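import Vale.Agent.P281.H603.TG.HasE
import Vale.Agent.P281.H303.TE.Cond
import Vale.Agent.P281.H303.TE.Core

/-!
# P281, project T-G, block G10 for T-E (helper603): `HasFam` for the coverings with Gauss maps
-/

open Set Filter Metric Vale.Agent.P281 Vale.Agent.P281.H713
open Vale.Agent.P272.K (Chart IsKahler IsHermitian)
open Vale.Agent.P281.MF Vale.Agent.P281.ISO
open Vale.Agent.P281.H713.TZ Vale.Agent.P281.H64
open Vale.Agent.P281.H64.Gen
open Vale.Agent.P281.H64.Thin (IsThinSet)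
open Vale.Agent.P281.H64.TU (Tame KTame RelFormT)
open Vale.Agent.P281.H969.TG
open scoped Topology ContDiff Manifold

set_option linter.all false

noncomputable section

namespace Vale.Agent.P281.H603.TG

open Vale.Agent.P281.H303.UF Vale.Agent.P281.H303.TE

section Mono

variable {E E' E₀ : Type} [NormedAddCommGroup E] [NormedSpace ℂ E] [FiniteDimensional ℂ E]
  [NormedAddCommGroup E'] [NormedSpace ℂ E'] [FiniteDimensional ℂ E']
  [NormedAddCommGroup E₀] [NormedSpace ℂ E₀] [FiniteDimensional ℂ E₀]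
  {X Y : Type} [TopologicalSpace X] [ChartedSpace E X] [IsManifold 𝓘(ℂ, E) ω X]
  [TopologicalSpace Y] [ChartedSpace E' Y] [IsManifold 𝓘(ℂ, E') ω Y]

theorem hasD_mono {T : Tame E₀ X} {f : X → Y} {S : Set Y} {e₀ : E ≃L[ℂ] (E' × E₀)}
    {Δ : Set X → ℝ} {r R : ℕ} {y : Y} (hr : r ≤ R) (h : HasFormsD T f S e₀ Δ R y) :
    HasFormsD T f S e₀ Δ r y := by
  obtain ⟨k, rfl⟩ := Nat.exists_eq_add_of_le hr
  obtain ⟨N, 𝒜, κ₀, Θ, Ξ, hN, h𝒜, hΘ, hΞ, hκ, x, hx, hne, hhol, hind⟩ := h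
  refine ⟨N, 𝒜, κ₀, Θ, fun b => Ξ (Fin.castAdd k b), hN, h𝒜, hΘ, fun b => hΞ _, hκ, x, hx, hne,
    fun b => hhol _, fun c hc b => ?_⟩
  have h1 := hind (Fin.append c (fun _ => 0)) (fun ξ hξ => ?_) (Fin.castAdd k b)
  · rwa [Fin.append_left] at h1
  · rw [Fin.sum_univ_add]
    simp only [Fin.append_left, Fin.append_right, zero_mul, Finset.sum_const_zero, add_zero]
    exact hc ξ hξ

end Mono

theorem fam_mono {p d r R : ℕ} {X Y : Type} [TopologicalSpace X] [ChartedSpace (Cm (p + d)) X]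
    [IsManifold 𝓘(ℂ, Cm (p + d)) ω X] [TopologicalSpace Y] [ChartedSpace (Cm p) Y]
    [IsManifold 𝓘(ℂ, Cm p) ω Y] {f : X → Y} {Δ : Set X → ℝ} (hr : r ≤ R)
    (h : HasFam p d R f Δ) : HasFam p d r f Δ := by
  obtain ⟨w, S, hw, hS, hP, hF⟩ := h
  exact ⟨w, S, hw, hS, hP, fun e₀ y hy => hasD_mono hr (hF e₀ y hy)⟩

/-- the first inequality is replaced by the existence of the forms -/
theorem fam_first (alb : TK.TE.AlbEStmt) {p d m r : ℕ} {X Y : Type} [TopologicalSpace X]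
    [ChartedSpace (Cm (p + d)) X] [IsManifold 𝓘(ℂ, Cm (p + d)) ω X] [TopologicalSpace Y]
    [ChartedSpace (Cm p) Y] [IsManifold 𝓘(ℂ, Cm p) ω Y] {f : X → Y}
    {Δ : Set X → ℝ} (hd : 0 < d) (h : H511.Surf.IsFibration (Cm (p + d)) (Cm p) f Δ)
    {w : Chart (p + d) X → Cm (p + d) → Matrix (Fin (p + d)) (Fin (p + d)) ℂ} (hw : IsKahler w)
    {S : Set Y} (hS : IsSmallSet (Cm p) S) (hP : IsProperFibration (n := p + d) (p := p) f S)
    (hpre : IsPreconnected Sᶜ) (hne : Sᶜ.Nonempty)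
    (hN : ∀ y ∉ S, TK.TE.NDegE (p + d) p d m r f y)
    (hN' : ∀ y ∉ S, ¬ TK.TE.NDegE (p + d) p d m (r + 1) f y) :
    HasFam p d r f Δ := by
  have : T2Space X := h.hausdorff.1
  have : T2Space Y := h.hausdorff.2
  have : CompactSpace X := h.compact
  have : ConnectedSpace X := h.connected
  obtain ⟨g, n, Q, ι, U, π, L, hA⟩ := alb p d m r X Y f S w hd h.hol hP hpre hw hN hN' hne
  have hΔ0 : ∀ D, 0 ≤ Δ D := fun D => (snc01 (JB.snc h.snc) D).1
  exact ⟨w, S, hw.toIsHermitian, hS, hP, fun e₀ y hy =>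
    hasD_albM hA hd (fun x => h.hol x) e₀ hΔ0 hy⟩

/-- one rank -/
theorem famR (deg : TK.TE.DegEStmt) (ab : TK.ABStmt) (coreS : TK.TE.CoreStmt)
    (fibE : TK.TE.FibEStmt) (gen : TK.GenNStmt) (img : TK.ImgNStmt) (exc : ExcStmt)
    (crit : CritStmt) (compl : ComplStmt) (alb : TK.TE.AlbEStmt)
    {p d r : ℕ} {X Y : Type} [TopologicalSpace X]
    [ChartedSpace (Cm (p + d)) X] [IsManifold 𝓘(ℂ, Cm (p + d)) ω X] [TopologicalSpace Y]
    [ChartedSpace (Cm p) Y] [IsManifold 𝓘(ℂ, Cm p) ω Y] {f : X → Y} {Δ : Set X → ℝ}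
    (hd : 0 < d) (h : H511.Surf.IsFibration (Cm (p + d)) (Cm p) f Δ)
    {w : Chart (p + d) X → Cm (p + d) → Matrix (Fin (p + d)) (Fin (p + d)) ℂ}
    (hw : IsKahler w) :
    ∃ H : ℕ → Set Y, (∀ k, IsThinSet (Cm p) (H k)) ∧ ∀ y, (∀ k, y ∉ H k) →
      ∀ (F : Type) [TopologicalSpace F] [T2Space F] [ChartedSpace (Cm d) F] (i : F → X),
        H511.Surf.IsFibre (Cm (p + d)) (Cm d) f y i → TK.GaussRank d F r →
        HasFam p d r f Δ := by
  classical
  have : T2Space X := h.hausdorff.1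
  have : T2Space Y := h.hausdorff.2
  have : CompactSpace X := h.compact
  have : ConnectedSpace X := h.connected
  have hsurj : Function.Surjective f := fun y => (h.fibres y).nonempty
  have : PreconnectedSpace Y := by
    rw [preconnectedSpace_iff_univ, ← hsurj.range_eq]
    exact isPreconnected_range h.hol.continuous
  have : Nonempty Y := by
    obtain ⟨x⟩ : Nonempty X := inferInstance
    exact ⟨f x⟩
  obtain ⟨S₁, hS₁, hP⟩ := crit (p + d) p X Y f h.hol h.fibres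
  have hP₁ := hP S₁ subset_rfl hS₁.1
  by_cases hr : ∃ m, ∃ y ∉ S₁, TK.TE.NDegE (p + d) p d m r f y
  · obtain ⟨m, hr⟩ := hr
    let P : ℕ → Prop := fun R => ∃ S : Set Y, S₁ ⊆ S ∧ IsSmallSet (Cm p) S ∧
      ∀ y ∉ S, TK.TE.NDegE (p + d) p d m R f y
    have hPd : ∀ R, P R → R ≤ d := by
      rintro R ⟨S, -, hS, hN⟩
      obtain ⟨y, hy⟩ := (compl p Y S hS).1.nonempty
      exact ndegE_le (hN y hy)
    have hPr : P r := by
      obtain ⟨S₂, h12, hS₂, hN⟩ := deg p d m r X Y f S₁ w hd h.hol hsurj hP₁ hS₁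
        (compl p Y S₁ hS₁).2 hw hr
      exact ⟨S₂, h12, hS₂, hN⟩
    have hR : P (Nat.findGreatest P d) := Nat.findGreatest_spec (hPd r hPr) hPr
    have hle : r ≤ Nat.findGreatest P d := Nat.le_findGreatest (hPd r hPr) hPr
    set R := Nat.findGreatest P d with hRdef
    obtain ⟨S₂, h12, hS₂, hN⟩ := hR
    have hP₂ := hP S₂ h12 hS₂.1
    have hN' : ∀ y ∉ S₂, ¬ TK.TE.NDegE (p + d) p d m (R + 1) f y := by
      intro y hy hy'
      obtain ⟨S₃, h23, hS₃, hN'⟩ := deg p d m (R + 1) X Y f S₂ w hd h.hol hsurj hP₂ hS₂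
        (compl p Y S₂ hS₂).2 hw ⟨y, hy, hy'⟩
      have h3 : P (R + 1) := ⟨S₃, h12.trans h23, hS₃, hN'⟩
      have h4 := Nat.le_findGreatest (P := P) (hPd _ h3) h3
      omega
    have h1 := fam_first alb hd h hw hS₂ hP₂ (compl p Y S₂ hS₂).2 (compl p Y S₂ hS₂).1.nonempty
      hN hN'
    refine ⟨fun _ => ∅, fun k => ?_, fun y hy F _ _ _ i hi hG => fam_mono hle h1⟩
    exact ⟨isClosed_empty, fun x => ⟨fun _ => 1, contMDiffAt_const,
      fun h0 => one_ne_zero (h0.self_of_nhds),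
      Eventually.of_forall fun z hz => absurd hz (notMem_empty z)⟩⟩
  · obtain ⟨S, H, hH, hmain⟩ := H303.TE.square gen img exc crit h h modif_id modif_id (fun x => rfl) hS₁
      hP₁
    refine ⟨H, hH, fun y hy F _ _ _ i hi hG => ?_⟩
    obtain ⟨y₁, hsq⟩ := hmain y hy F i hi
    obtain ⟨m, hm⟩ := fibE p d r X Y X Y f f id id S S₁ y y₁ F i hd hsq ab coreS hG
    exact absurd ⟨m, y₁, hsq.out₁, hm⟩ hr

/-- **G10 for T-E**, all ranks -/
theorem famE_of (deg : TK.TE.DegEStmt) (ab : TK.ABStmt) (coreS : TK.TE.CoreStmt)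
    (fibE : TK.TE.FibEStmt) (gen : TK.GenNStmt) (img : TK.ImgNStmt) (exc : ExcStmt)
    (crit : CritStmt) (compl : ComplStmt) (alb : TK.TE.AlbEStmt)
    {p d : ℕ} {X Y : Type} [TopologicalSpace X]
    [ChartedSpace (Cm (p + d)) X] [IsManifold 𝓘(ℂ, Cm (p + d)) ω X] [TopologicalSpace Y]
    [ChartedSpace (Cm p) Y] [IsManifold 𝓘(ℂ, Cm p) ω Y] {f : X → Y} {Δ : Set X → ℝ}
    (hd : 0 < d) (h : H511.Surf.IsFibration (Cm (p + d)) (Cm p) f Δ)
    (hw : ∃ w : Chart (p + d) X → Cm (p + d) → Matrix (Fin (p + d)) (Fin (p + d)) ℂ,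
      IsKahler w) :
    ∃ H : ℕ → Set Y, (∀ k, IsThinSet (Cm p) (H k)) ∧ ∀ y, (∀ k, y ∉ H k) →
      ∀ (F : Type) [TopologicalSpace F] [T2Space F] [ChartedSpace (Cm d) F] (i : F → X),
        H511.Surf.IsFibre (Cm (p + d)) (Cm d) f y i → ∀ r : ℕ, TK.GaussRank d F r →
        HasFam p d r f Δ := by
  obtain ⟨w, hw⟩ := hw
  choose H hH hmain using fun r => famR deg ab coreS fibE gen img exc crit compl alb (r := r) hd h hw
  refine ⟨fun k => H k.unpair.1 k.unpair.2, fun k => hH _ _, fun y hy F _ _ _ i hi r hG =>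
    hmain r y (fun k => ?_) F i hi hG⟩
  have h1 := hy (Nat.pair r k)
  simpa only [Nat.unpair_pair] using h1

end Vale.Agent.P281.H603.TG
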