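import Vale.Agent.P281.H603.TG.FamE
import Vale.Agent.P281.H303.TE.Fin

/-!
# P281, project T-G, block G10 for T-E (helper603), unconditional
-/

open Set Filter Metric Vale.Agent.P281 Vale.Agent.P281.H713
open Vale.Agent.P272.K (Chart IsKahler IsHermitian)
open Vale.Agent.P281.MF Vale.Agent.P281.ISO
open Vale.Agent.P281.H713.TZ Vale.Agent.P281.H64
open Vale.Agent.P281.H64.Gen
open Vale.Agent.P281.H64.Thin (IsThinSet)
open Vale.Agent.P281.H969.TG
open scoped Topology ContDiff Manifold

set_option linter.all false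

noncomputable section

namespace Vale.Agent.P281.H603.TG

open Vale.Agent.P281.H303.UF

/-- **G10 for T-E**: `X` Kähler; if a finite étale covering `F` of the very general fibre has a Gauss
map of rank at least `r`, then `f` has the relative forms -/
theorem famE {p d : ℕ} {X Y : Type} [TopologicalSpace X]
    [ChartedSpace (Cm (p + d)) X] [IsManifold 𝓘(ℂ, Cm (p + d)) ω X] [TopologicalSpace Y]
    [ChartedSpace (Cm p) Y] [IsManifold 𝓘(ℂ, Cm p) ω Y] {f : X → Y} {Δ : Set X → ℝ}
    (hd : 0 < d) (h : H511.Surf.IsFibration (Cm (p + d)) (Cm p) f Δ)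
    (hw : ∃ w : Chart (p + d) X → Cm (p + d) → Matrix (Fin (p + d)) (Fin (p + d)) ℂ,
      IsKahler w) :
    ∃ H : ℕ → Set Y, (∀ k, IsThinSet (Cm p) (H k)) ∧ ∀ y, (∀ k, y ∉ H k) →
      ∀ (F : Type) [TopologicalSpace F] [T2Space F] [ChartedSpace (Cm d) F] (i : F → X),
        H511.Surf.IsFibre (Cm (p + d)) (Cm d) f y i → ∀ r : ℕ, TK.GaussRank d F r →
        HasFam p d r f Δ :=
  famE_of (H969.E.degE_of_inputs TK.inputs) H152.K.ab H603.TE.coreS H303.TE.fibE H383.KN.genN
    H383.KN.imgN H737.Gen.exc crit H383.Gen.compl H303.TE.albE hd h hw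

end Vale.Agent.P281.H603.TG
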